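import Mathlib
import Vale.Agent.P204.Kernel.Cov
import Vale.Agent.P204.General.Forms

/-!
# P204: the invariant part of the flat line kernel
-/

open MeasureTheory Matrix Filter Set
open scoped ContDiff Topology

namespace Vale.Agent.P204.Kernel

open Vale.Agent.P204.General Vale.Agent.P204.Torus

/-- A linear complex structure in dimension four has determinant one. -/
theorem det_eq_one_of_sq {j : M4} (hj : j * j = -1) : j.det = 1 := by
  obtain ⟨M, hM, hMa, hpos⟩ := exists_anti_ne hj
  have h := wedge_congr hM hM j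
  rw [hMa] at h
  have hn : wedge (-M) (-M) = wedge M M := by simp only [wedge, Matrix.neg_apply]; ring
  rw [hn] at h
  have hne : wedge M M ≠ 0 := fun h0 => by rw [h0, mul_zero] at hpos; exact lt_irrefl _ hpos
  exact (mul_eq_right₀ hne).1 h.symm

/-- The bivector form of two vectors. -/
def flat (v w : Pt) : M4 := Matrix.of fun a b => det4 (Pi.single a 1) (Pi.single b 1) v w

theorem flat_skew (v w : Pt) : (flat v w)ᵀ = -flat v w := by
  ext a b
  simp only [flat, transpose_apply, of_apply, Matrix.neg_apply]
  exact det4_swap₁₂ _ _ _ _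

theorem flat_eq_dualBiv (v w : Pt) : flat v w = dualBiv v w := by
  ext a b
  fin_cases a <;> fin_cases b <;>
    simp [flat, dualBiv, det4_expand]

/-- The invariant part of the bivector form is invariant in the vectors. -/
theorem inv11_flat {j : M4} (hj : j * j = -1) (v w : Pt) :
    inv11 j (flat (j *ᵥ v) (j *ᵥ w)) = inv11 j (flat v w) := by
  have hdet := det_eq_one_of_sq hj
  have hconj : ∀ v w : Pt, jᵀ * flat v w * j = flat (j *ᵥ v) (j *ᵥ w) := fun v w => by
    have e : ∀ a b, (jᵀ * flat v w * j) a b =
        ev2 (flat v w) (j *ᵥ Pi.single a 1) (j *ᵥ Pi.single b 1) := fun a b => by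
      rw [← ev2_congr (flat_skew v w), ← dot_mulVec_eq_ev2 (skew_conj' (flat_skew v w) j)]
      simp
    ext a b
    rw [e, flat_eq_dualBiv, ← det4_eq]
    have h := det4_mulVec j (j *ᵥ Pi.single a 1) (j *ᵥ Pi.single b 1) v w
    rw [hdet, one_mul, mulVec_mulVec_self hj, mulVec_mulVec_self hj] at h
    rw [← h]
    simp only [flat, of_apply, det4_expand, Pi.neg_apply]
    ring
  have hneg : ∀ v : Pt, j *ᵥ (j *ᵥ v) = -v := mulVec_mulVec_self hj
  have hff : flat (-v) (-w) = flat v w := by
    ext a b
    simp only [flat, of_apply, det4_expand, Pi.neg_apply]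
    ring
  simp only [inv11, hconj, hneg, hff]
  rw [add_comm]

/-- The pairing of a bivector form is bounded. -/
theorem abs_flat_le (v w : Pt) (a b : Fin 4) : |flat v w a b| ≤ 24 * ‖v‖ * ‖w‖ := by
  have e : ∀ c : Fin 4, ‖(Pi.single c 1 : Pt)‖ ≤ 1 := fun c => by
    refine (pi_norm_le_iff_of_nonneg zero_le_one).2 fun i => ?_
    rw [Pi.single_apply]; split <;> simp
  refine (abs_det4_le _ _ _ _).trans ?_
  have h1 := mul_le_mul (e a) (e b) (norm_nonneg _) zero_le_one
  have hv := norm_nonneg v
  have hw := norm_nonneg w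
  nlinarith [mul_le_mul_of_nonneg_right h1 (mul_nonneg hv hw)]

end Vale.Agent.P204.Kernel
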