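import Mathlib
import Vale.Agent.P204.Kernel.Subord
import Vale.Agent.P204.Kernel.Calc
import Vale.Agent.P204.Kernel.Density.Alg
import Vale.Agent.P204.General.Assembly.Meas

/-!
# P204: the line kernel against its flat model
-/

open MeasureTheory Matrix Filter Set
open scoped ContDiff Topology

namespace Vale.Agent.P204.Kernel

open Vale.Agent.P204.General Vale.Agent.P204.Torus

variable {N K : ℕ} (A : Atlas N K)

/-- The common Gaussian bound of the line kernel. -/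
noncomputable def gauss (a σ : ℝ) (x z : Amb N) : ℝ :=
  Real.exp (-(a * ‖z - x‖ ^ 2) / σ ^ 2) / σ ^ 4

theorem gauss_nonneg (a σ : ℝ) (x z : Amb N) : 0 ≤ gauss a σ x z :=
  div_nonneg (Real.exp_pos _).le (Even.pow_nonneg (by decide) σ)

theorem exists_norm_mulVec {n m : ℕ} {S : Set Pt} (hS : IsCompact S)
    {F : Pt → Matrix (Fin n) (Fin m) ℝ} (hF : ∀ i k, ContinuousOn (fun p => F p i k) S) :
    ∃ B, 0 ≤ B ∧ ∀ p ∈ S, (∀ i k, |F p i k| ≤ B) ∧ ∀ u, ‖F p *ᵥ u‖ ≤ B * ‖u‖ := by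
  choose b hb using fun z : Fin n × Fin m => hS.exists_bound_of_continuousOn (hF z.1 z.2)
  set B := ∑ z, |b z|
  have hB : 0 ≤ B := Finset.sum_nonneg fun _ _ => abs_nonneg _
  have he : ∀ p ∈ S, ∀ i k, |F p i k| ≤ B := fun p hp i k =>
    ((hb (i, k) p hp).trans (le_abs_self _)).trans
      (Finset.single_le_sum (f := fun z => |b z|) (fun _ _ => abs_nonneg _) (Finset.mem_univ _))
  refine ⟨B * (m + 1), by positivity, fun p hp => ⟨fun i k => (he p hp i k).trans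
    (le_mul_of_one_le_right hB (le_add_of_nonneg_left (Nat.cast_nonneg m))), fun u => ?_⟩⟩
  refine (pi_norm_le_iff_of_nonneg (by positivity)).2 fun i => ?_
  rw [Real.norm_eq_abs]
  simp only [mulVec, dotProduct]
  refine (Finset.abs_sum_le_sum_abs _ _).trans ((Finset.sum_le_sum fun k _ => ?_).trans
    (b := ∑ _k : Fin m, B * ‖u‖) ?_)
  · rw [abs_mul]
    exact mul_le_mul (he p hp i k) ((Real.norm_eq_abs _).symm.trans_le (norm_le_pi_norm u k))
      (abs_nonneg _) hB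
  · simp only [Finset.sum_const, Finset.card_univ, Fintype.card_fin, nsmul_eq_mul]
    nlinarith [mul_nonneg hB (norm_nonneg u)]

theorem vs_continuousOn (c : Fin K) : ContinuousOn (vs A c) box := by
  refine (Real.continuous_sqrt.comp (Continuous.matrix_det (continuous_matrix fun i k => ?_))).continuousOn
  have := fun a i => (A.dmat_smooth c a i).continuous
  simp only [gram, Matrix.mul_apply, Matrix.transpose_apply]
  fun_prop

/-- The flat model of the kernel. -/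
noncomputable def flat22 (c : Fin K) (r d σ : ℝ) (p : Pt) (z u w : Amb N) : M4 :=
  (etaF r (z - A.psi c p) * (gProf d σ (sdist A c p z) * vs A c p)) •
    flat (yy A c p u) (yy A c p w)

theorem etaF_zero {r : ℝ} (hr : 0 < r) {u : Amb N} (h : 2 * r ^ 2 ≤ u ⬝ᵥ u) : etaF r u = 0 := by
  refine Real.smoothTransition.zero_of_nonpos ?_
  rw [sub_nonpos, le_div_iff₀ (by positivity)]
  exact h

theorem abs_etaF_le (r : ℝ) (u : Amb N) : |etaF r u| ≤ 1 := by
  rw [etaF, abs_of_nonneg (Real.smoothTransition.nonneg _)]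
  exact Real.smoothTransition.le_one _

theorem abs_flat22_le {r d c₀ C₀ : ℝ} (hG : GoodR A r d c₀ C₀) :
    ∃ C, 0 ≤ C ∧ ∀ c, ∀ p ∈ Metric.closedBall (0 : Pt) (1 / 2), ∀ σ, 0 < σ → σ ≤ 1 →
      ∀ z ∈ A.X, ∀ u w a b,
      |flat22 A c r d σ p z u w a b| ≤ C * gauss (c₀ / 4) σ (A.psi c p) z * (‖u‖ * ‖w‖) ∧
      |loc22 A c r d σ p z u w a b - flat22 A c r d σ p z u w a b|
        ≤ C * (σ ^ 2 + ‖z - A.psi c p‖ ^ 2) * gauss (c₀ / 4) σ (A.psi c p) z * (‖u‖ * ‖w‖) := by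
  set S := Metric.closedBall (0 : Pt) (1 / 2)
  have hS : IsCompact S := isCompact_closedBall _ _
  choose P hP0 hP using fun c => exists_norm_mulVec hS fun i k =>
    ((pim_smooth A c i k).continuousOn).mono closedBall_subset_box
  choose W hW0 hW using fun z : Fin K × Fin 4 => exists_norm_mulVec hS fun i k =>
    ((wop_smooth A z.1 z.2 i k).continuousOn).mono closedBall_subset_box
  choose V hV using fun c => hS.exists_bound_of_continuousOn
    ((vs_continuousOn A c).mono closedBall_subset_box)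
  obtain ⟨R, hR0, hR⟩ : ∃ R, 0 ≤ R ∧ ∀ x ∈ A.X, ‖x‖ ≤ R := by
    obtain ⟨R, hR⟩ := A.compact.exists_bound_of_continuousOn continuousOn_id
    exact ⟨max R 0, le_max_right _ _, fun x hx => (hR x hx).trans (le_max_left _ _)⟩
  set P₀ := ∑ c, P c
  set W₀ := ∑ z, W z
  set V₀ := ∑ c, |V c|
  have hP₀ : 0 ≤ P₀ := Finset.sum_nonneg fun c _ => hP0 c
  have hW₀ : 0 ≤ W₀ := Finset.sum_nonneg fun z _ => hW0 z
  have hV₀ : 0 ≤ V₀ := Finset.sum_nonneg fun c _ => abs_nonneg _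
  set E := |C₀| * (2 + |C₀| * (2 * R) ^ 2)
  have hE : 0 ≤ E := by positivity
  refine ⟨24 * V₀ * P₀ ^ 2 * (1 + E) + 2 * (24 * V₀ * N * W₀ ^ 2 * P₀ ^ 2), by positivity,
    fun c p hp σ hσ hσ1 z hz u w a b => ?_⟩
  set x := A.psi c p
  set g₀ := gauss (c₀ / 4) σ x z
  have hg₀ : 0 ≤ g₀ := gauss_nonneg _ _ _ _
  have huw : 0 ≤ ‖u‖ * ‖w‖ := by positivity
  by_cases hη : etaF r (z - x) = 0
  · simp only [x] at hη
    simp only [flat22, loc22, of_apply, hη, zero_mul, zero_smul, Matrix.zero_apply, abs_zero,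
      sub_zero]
    exact ⟨by positivity, by positivity⟩
  have hnear : (z - x) ⬝ᵥ (z - x) ≤ 2 * r ^ 2 := by
    by_contra h; exact hη (etaF_zero hG.r_pos (not_le.1 h).le)
  have hp' : p ∈ Metric.closedBall (0 : Pt) (7 / 8) :=
    Metric.closedBall_subset_closedBall (by norm_num) hp
  obtain ⟨hlo, -, hwq⟩ := hG.low c p hp' z hz hnear
  have hexp : Real.exp (-sdist A c p z / (4 * σ ^ 2)) ≤ σ ^ 4 * g₀ := by
    simp only [g₀, gauss]
    rw [mul_div_cancel₀ _ (by positivity)]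
    refine Real.exp_le_exp.2 ?_
    rw [neg_div, neg_div, neg_le_neg_iff, div_le_div_iff₀ (by positivity) (by positivity)]
    nlinarith
  have hg : |gProf d σ (sdist A c p z)| ≤ g₀ := (gProf_bound _ _ _).trans (by
    rw [div_le_iff₀ (by positivity)]; linarith)
  have hh : |hProf d σ (sdist A c p z)| ≤ 2 * (σ ^ 2 * g₀) := (hProf_bound hG.d_pos hσ _).trans (by
    refine mul_le_mul_of_nonneg_left ?_ zero_le_two
    rw [div_le_iff₀ (by positivity)]
    linarith [show σ ^ 2 * g₀ * σ ^ 2 = σ ^ 4 * g₀ by ring])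
  have hPc : P c ≤ P₀ := Finset.single_le_sum (f := P) (fun c _ => hP0 c) (Finset.mem_univ c)
  have hY : ∀ v, ‖yy A c p v‖ ≤ P₀ * ‖v‖ := fun v =>
    ((hP c p hp).2 v).trans (mul_le_mul_of_nonneg_right hPc (norm_nonneg _))
  have hvs : |vs A c p| ≤ V₀ := ((hV c p hp).trans (le_abs_self _)).trans
    (Finset.single_le_sum (f := fun c => |V c|) (fun _ _ => abs_nonneg _) (Finset.mem_univ c))
  set Y := yy A c p u
  set Z := yy A c p w
  have hYZ : ‖Y‖ * ‖Z‖ ≤ P₀ ^ 2 * (‖u‖ * ‖w‖) :=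
    (mul_le_mul (hY u) (hY w) (norm_nonneg _) (by positivity)).trans_eq (by ring)
  have hηb := abs_etaF_le r (z - x)
  have hflat : |flat Y Z a b| ≤ 24 * (P₀ ^ 2 * (‖u‖ * ‖w‖)) := by
    refine (abs_flat_le _ _ _ _).trans ?_
    rw [mul_assoc]; exact mul_le_mul_of_nonneg_left hYZ (by norm_num)
  set q := ‖z - x‖ ^ 2
  have hq : q ≤ (2 * R) ^ 2 := pow_le_pow_left₀ (norm_nonneg _) ((norm_sub_le _ _).trans (by
    linarith [hR z hz, hR x (A.psi_mem c p (closedBall_subset_box hp))])) 2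
  have hx' : ∀ i, ‖wop A c i p *ᵥ (z - x)‖ ≤ |C₀| * q := fun i =>
    (hwq i).trans (mul_le_mul_of_nonneg_right (le_abs_self _) (sq_nonneg _))
  have hei : ∀ i : Fin 4, ‖-(Pi.single i 1 : Pt)‖ ≤ 1 := fun i => by
    rw [norm_neg]
    refine (pi_norm_le_iff_of_nonneg zero_le_one).2 fun j => ?_
    rw [Pi.single_apply]; split <;> simp
  have hdet : |det4 (xx A c a p z) (xx A c b p z) Y Z - flat Y Z a b| ≤
      24 * E * q * (P₀ ^ 2 * (‖u‖ * ‖w‖)) := by
    have e : det4 (xx A c a p z) (xx A c b p z) Y Z - flat Y Z a b =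
        det4 (wop A c a p *ᵥ (z - x)) (xx A c b p z) Y Z +
          det4 (-Pi.single a 1) (wop A c b p *ᵥ (z - x)) Y Z := by
      simp only [xx, flat, of_apply, det4_expand, Pi.add_apply, Pi.neg_apply, x]
      ring
    have hxb : ‖xx A c b p z‖ ≤ 1 + |C₀| * q := (norm_add_le _ _).trans (add_le_add (hei b) (hx' b))
    rw [e]
    refine (abs_add_le _ _).trans ((add_le_add (abs_det4_le _ _ _ _) (abs_det4_le _ _ _ _)).trans ?_)
    have hCq : 0 ≤ |C₀| * q := by positivity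
    have k1 : 24 * ‖wop A c a p *ᵥ (z - x)‖ * ‖xx A c b p z‖ ≤
        24 * (|C₀| * q) * (1 + |C₀| * (2 * R) ^ 2) := by
      refine mul_le_mul (mul_le_mul_of_nonneg_left (hx' a) (by norm_num)) (hxb.trans ?_)
        (norm_nonneg _) (by positivity)
      gcongr
    have k2 : 24 * ‖-(Pi.single a 1 : Pt)‖ * ‖wop A c b p *ᵥ (z - x)‖ ≤ 24 * 1 * (|C₀| * q) :=
      mul_le_mul (mul_le_mul_of_nonneg_left (hei a) (by norm_num)) (hx' b) (norm_nonneg _) (by norm_num)
    have hYZ0 : 0 ≤ ‖Y‖ * ‖Z‖ := by positivity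
    calc _ = (24 * ‖wop A c a p *ᵥ (z - x)‖ * ‖xx A c b p z‖ +
          24 * ‖-(Pi.single a 1 : Pt)‖ * ‖wop A c b p *ᵥ (z - x)‖) * (‖Y‖ * ‖Z‖) := by ring
      _ ≤ (24 * E * q) * (P₀ ^ 2 * (‖u‖ * ‖w‖)) := by
          refine mul_le_mul ((add_le_add k1 k2).trans_eq ?_) hYZ hYZ0 (by positivity)
          simp only [E]; ring
  have hcurv : |curvE (wop A c a p) (wop A c b p) Y Z| ≤
      24 * N * W₀ ^ 2 * (P₀ ^ 2 * (‖u‖ * ‖w‖)) := by
    have hcol : ∀ i k, ‖fun l => wop A c i p l k‖ ≤ W₀ := fun i k =>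
      (pi_norm_le_iff_of_nonneg hW₀).2 fun l => ((Real.norm_eq_abs _).trans_le
        ((hW (c, i) p hp).1 l k)).trans (Finset.single_le_sum (f := W) (fun z _ => hW0 z)
          (Finset.mem_univ _))
    refine (Finset.abs_sum_le_sum_abs _ _).trans ((Finset.sum_le_sum fun k _ =>
      (abs_det4_le _ _ _ _).trans ?_).trans_eq (b := ∑ _k : Fin N, 24 * W₀ * W₀ *
        (P₀ ^ 2 * (‖u‖ * ‖w‖))) ?_)
    · rw [mul_assoc _ ‖Y‖]
      exact mul_le_mul (mul_le_mul (mul_le_mul_of_nonneg_left (hcol a k) (by norm_num)) (hcol b k)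
        (norm_nonneg _) (by positivity)) hYZ (by positivity) (by positivity)
    · simp; ring
  refine ⟨?_, ?_⟩
  · simp only [flat22, Matrix.smul_apply, smul_eq_mul, abs_mul, x] at *
    calc _ ≤ 1 * (g₀ * V₀) * (24 * (P₀ ^ 2 * (‖u‖ * ‖w‖))) :=
          mul_le_mul (mul_le_mul hηb (mul_le_mul hg hvs (abs_nonneg _) hg₀)
            (mul_nonneg (abs_nonneg _) (abs_nonneg _)) zero_le_one) hflat (abs_nonneg _) (by positivity)
      _ = 24 * V₀ * P₀ ^ 2 * (g₀ * (‖u‖ * ‖w‖)) := by ring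
      _ ≤ (24 * V₀ * P₀ ^ 2 * (1 + E) + 2 * (24 * V₀ * N * W₀ ^ 2 * P₀ ^ 2)) *
            (g₀ * (‖u‖ * ‖w‖)) := by
          refine mul_le_mul_of_nonneg_right ?_ (by positivity)
          have : (0 : ℝ) ≤ 24 * V₀ * N * W₀ ^ 2 * P₀ ^ 2 := by positivity
          have : (0 : ℝ) ≤ 24 * V₀ * P₀ ^ 2 * E := by positivity
          linarith
      _ = _ := by ring
  · have e : loc22 A c r d σ p z u w a b - flat22 A c r d σ p z u w a b =
        etaF r (z - x) * (gProf d σ (sdist A c p z) * vs A c p *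
          (det4 (xx A c a p z) (xx A c b p z) Y Z - flat Y Z a b) +
          hProf d σ (sdist A c p z) * vs A c p * curvE (wop A c a p) (wop A c b p) Y Z) := by
      simp only [flat22, loc22, k22, of_apply, Matrix.smul_apply, smul_eq_mul, x, Y, Z]
      ring
    rw [e, abs_mul]
    have t1 : |gProf d σ (sdist A c p z) * vs A c p *
          (det4 (xx A c a p z) (xx A c b p z) Y Z - flat Y Z a b)| ≤
        g₀ * V₀ * (24 * E * q * (P₀ ^ 2 * (‖u‖ * ‖w‖))) := by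
      rw [abs_mul, abs_mul]
      exact mul_le_mul (mul_le_mul hg hvs (abs_nonneg _) hg₀) hdet (abs_nonneg _) (by positivity)
    have t2 : |hProf d σ (sdist A c p z) * vs A c p * curvE (wop A c a p) (wop A c b p) Y Z| ≤
        2 * (σ ^ 2 * g₀) * V₀ * (24 * N * W₀ ^ 2 * (P₀ ^ 2 * (‖u‖ * ‖w‖))) := by
      rw [abs_mul, abs_mul]
      exact mul_le_mul (mul_le_mul hh hvs (abs_nonneg _) (by positivity)) hcurv (abs_nonneg _)
        (by positivity)
    refine (mul_le_mul hηb ((abs_add_le _ _).trans (add_le_add t1 t2)) (abs_nonneg _)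
      zero_le_one).trans ?_
    have hσ2 : 0 ≤ σ ^ 2 := sq_nonneg σ
    have hq0 : 0 ≤ q := sq_nonneg _
    have hA1 : 0 ≤ 24 * V₀ * P₀ ^ 2 := by positivity
    have hA2 : (0 : ℝ) ≤ 2 * (24 * V₀ * N * W₀ ^ 2 * P₀ ^ 2) := by positivity
    calc _ = (24 * V₀ * P₀ ^ 2 * E * q + 2 * (24 * V₀ * N * W₀ ^ 2 * P₀ ^ 2) * σ ^ 2) *
          (g₀ * (‖u‖ * ‖w‖)) := by ring
      _ ≤ (24 * V₀ * P₀ ^ 2 * (1 + E) + 2 * (24 * V₀ * N * W₀ ^ 2 * P₀ ^ 2)) * (σ ^ 2 + q) *
          (g₀ * (‖u‖ * ‖w‖)) := by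
          refine mul_le_mul_of_nonneg_right ?_ (by positivity)
          linarith [mul_nonneg hA1 hq0, mul_nonneg hA1 hσ2, mul_nonneg (mul_nonneg hA1 hE) hσ2,
            mul_nonneg hA2 hq0]
      _ = _ := by ring

/-- The kernel is Gaussian, and its invariant part is nearly invariant in the second slot. -/
theorem exists_loc22_bounds {J : Amb N → MN N} (hJ : IsACS A J) {r d c₀ C₀ : ℝ}
    (hG : GoodR A r d c₀ C₀) :
    ∃ C, 0 ≤ C ∧ ∀ c, ∀ p ∈ Metric.closedBall (0 : Pt) (1 / 2), ∀ σ, 0 < σ → σ ≤ 1 →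
      ∀ z ∈ A.X, ∀ u w a b,
      |loc22 A c r d σ p z u w a b| ≤ C * gauss (c₀ / 4) σ (A.psi c p) z * (‖u‖ * ‖w‖) ∧
      |inv11 (A.jc J c p) (loc22 A c r d σ p z u w) a b
          - inv11 (A.jc J c p) (loc22 A c r d σ p z (J z *ᵥ u) (J z *ᵥ w)) a b|
        ≤ C * (σ + ‖z - A.psi c p‖) * gauss (c₀ / 4) σ (A.psi c p) z * (‖u‖ * ‖w‖) := by
  set S := Metric.closedBall (0 : Pt) (1 / 2)
  have hS : IsCompact S := isCompact_closedBall _ _
  obtain ⟨C₁, hC₁, hb⟩ := abs_flat22_le A hG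
  obtain ⟨CJ, hCJ, hJl⟩ := exists_J_lipschitz A hJ
  choose Bj hBj0 hBj using fun c => exists_norm_mulVec hS fun i k =>
    ((hJ.smooth c i k).continuousOn).mono closedBall_subset_box
  choose P hP0 hP using fun c => exists_norm_mulVec hS fun i k =>
    ((pim_smooth A c i k).continuousOn).mono closedBall_subset_box
  choose V hV using fun c => hS.exists_bound_of_continuousOn
    ((vs_continuousOn A c).mono closedBall_subset_box)
  choose BJ hBJ using fun z : Fin N × Fin N =>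
    A.compact.exists_bound_of_continuousOn (Atlas.J_continuousOn (A := A) hJ z.1 z.2)
  obtain ⟨R, hR0, hR⟩ : ∃ R, 0 ≤ R ∧ ∀ x ∈ A.X, ‖x‖ ≤ R := by
    obtain ⟨R, hR⟩ := A.compact.exists_bound_of_continuousOn continuousOn_id
    exact ⟨max R 0, le_max_right _ _, fun x hx => (hR x hx).trans (le_max_left _ _)⟩
  set B₀ := ∑ c, Bj c
  set P₀ := ∑ c, P c
  set V₀ := ∑ c, |V c|
  set J₀ := N * ∑ z, |BJ z| + N
  have hB₀ : 0 ≤ B₀ := Finset.sum_nonneg fun c _ => hBj0 c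
  have hP₀ : 0 ≤ P₀ := Finset.sum_nonneg fun c _ => hP0 c
  have hV₀ : 0 ≤ V₀ := Finset.sum_nonneg fun c _ => abs_nonneg _
  have hJ₀ : (0 : ℝ) ≤ J₀ :=
    add_nonneg (mul_nonneg (Nat.cast_nonneg N) (Finset.sum_nonneg fun _ _ => abs_nonneg _))
      (Nat.cast_nonneg N)
  set T := (1 + 16 * B₀ ^ 2) / 2
  have hT : 0 ≤ T := by positivity
  set D₁ := C₁ * (1 + 2 * R)
  set D₂ := T * (24 * V₀ * (P₀ * (N * CJ)) * (P₀ * J₀ + B₀ * P₀))
  refine ⟨C₁ + C₁ * (1 + (2 * R) ^ 2) + T * (1 + J₀ ^ 2) * D₁ + D₂, by positivity,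
    fun c p hp σ hσ hσ1 z hz u w a b => ?_⟩
  have hp' := closedBall_subset_box hp
  set x := A.psi c p
  set g₀ := gauss (c₀ / 4) σ x z
  have hg₀ : 0 ≤ g₀ := gauss_nonneg _ _ _ _
  set ρ := ‖z - x‖
  have hρ : 0 ≤ ρ := norm_nonneg _
  have hρR : ρ ≤ 2 * R := (norm_sub_le _ _).trans (by
    linarith [hR z hz, hR x (A.psi_mem c p hp')])
  have huw : 0 ≤ ‖u‖ * ‖w‖ := by positivity
  refine ⟨?_, ?_⟩
  · obtain ⟨h1, h2⟩ := hb c p hp σ hσ hσ1 z hz u w a b
    have h3 : σ ^ 2 + ρ ^ 2 ≤ 1 + (2 * R) ^ 2 :=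
      add_le_add (pow_le_one₀ hσ.le hσ1) (pow_le_pow_left₀ hρ hρR 2)
    calc |loc22 A c r d σ p z u w a b|
        = |flat22 A c r d σ p z u w a b +
            (loc22 A c r d σ p z u w a b - flat22 A c r d σ p z u w a b)| := by rw [add_sub_cancel]
      _ ≤ C₁ * g₀ * (‖u‖ * ‖w‖) + C₁ * (σ ^ 2 + ρ ^ 2) * g₀ * (‖u‖ * ‖w‖) :=
          (abs_add_le _ _).trans (add_le_add h1 h2)
      _ ≤ C₁ * g₀ * (‖u‖ * ‖w‖) + C₁ * (1 + (2 * R) ^ 2) * g₀ * (‖u‖ * ‖w‖) := by gcongr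
      _ = (C₁ + C₁ * (1 + (2 * R) ^ 2)) * (g₀ * (‖u‖ * ‖w‖)) := by ring
      _ ≤ (C₁ + C₁ * (1 + (2 * R) ^ 2) + T * (1 + J₀ ^ 2) * D₁ + D₂) * (g₀ * (‖u‖ * ‖w‖)) := by
          refine mul_le_mul_of_nonneg_right ?_ (by positivity)
          have : 0 ≤ T * (1 + J₀ ^ 2) * D₁ := by positivity
          have : 0 ≤ D₂ := by positivity
          linarith
      _ = _ := by ring
  have hjb : ∀ i k, |A.jc J c p i k| ≤ B₀ := fun i k => ((hBj c p hp).1 i k).trans
    (Finset.single_le_sum (f := Bj) (fun c _ => hBj0 c) (Finset.mem_univ c))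
  have hinv : ∀ (M : M4) (t : ℝ), 0 ≤ t → (∀ i k, |M i k| ≤ t) →
      |inv11 (A.jc J c p) M a b| ≤ T * t := fun M t ht hM => by
    simp only [inv11, Matrix.smul_apply, Matrix.add_apply, smul_eq_mul, abs_mul,
      Matrix.mul_apply, Matrix.transpose_apply]
    rw [abs_of_nonneg (by norm_num : (0 : ℝ) ≤ 2⁻¹)]
    have h1 : |∑ l, (∑ k, A.jc J c p k a * M k l) * A.jc J c p l b| ≤ 16 * B₀ ^ 2 * t := by
      simp only [Finset.sum_mul]
      refine (Finset.abs_sum_le_sum_abs _ _).trans ((Finset.sum_le_sum fun l _ =>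
        (Finset.abs_sum_le_sum_abs _ _).trans (Finset.sum_le_sum fun k _ => ?_)).trans_eq
        (b := ∑ _l : Fin 4, ∑ _k : Fin 4, B₀ * t * B₀) ?_)
      · rw [abs_mul, abs_mul]
        exact mul_le_mul (mul_le_mul (hjb _ _) (hM _ _) (abs_nonneg _) hB₀) (hjb _ _)
          (abs_nonneg _) (by positivity)
      · simp; ring
    have := (abs_add_le (M a b) (∑ l, (∑ k, A.jc J c p k a * M k l) * A.jc J c p l b)).trans
      (add_le_add (hM a b) h1)
    calc 2⁻¹ * _ ≤ 2⁻¹ * (t + 16 * B₀ ^ 2 * t) := mul_le_mul_of_nonneg_left this (by norm_num)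
      _ = T * t := by simp only [T]; ring
  have hJn : ∀ v, ‖J z *ᵥ v‖ ≤ J₀ * ‖v‖ := fun v => by
    refine (pi_norm_le_iff_of_nonneg (by positivity)).2 fun i => ?_
    rw [Real.norm_eq_abs]
    simp only [mulVec, dotProduct]
    refine (Finset.abs_sum_le_sum_abs _ _).trans ((Finset.sum_le_sum fun k _ => ?_).trans
      (b := ∑ _k : Fin N, (∑ y, |BJ y|) * ‖v‖) ?_)
    · rw [abs_mul]
      refine mul_le_mul (((hBJ (i, k) z hz).trans (le_abs_self _)).trans (Finset.single_le_sum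
        (f := fun y => |BJ y|) (fun _ _ => abs_nonneg _) (Finset.mem_univ _)))
        ((Real.norm_eq_abs _).symm.trans_le (norm_le_pi_norm v k)) (abs_nonneg _)
        (Finset.sum_nonneg fun _ _ => abs_nonneg _)
    · simp only [Finset.sum_const, Finset.card_univ, Fintype.card_fin, nsmul_eq_mul, J₀]
      nlinarith [mul_nonneg (Nat.cast_nonneg (α := ℝ) N) (norm_nonneg v)]
  -- the error terms
  set F := fun u w => flat22 A c r d σ p z u w
  set L := fun u w => loc22 A c r d σ p z u w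
  have herr : ∀ u w, |inv11 (A.jc J c p) (L u w) a b - inv11 (A.jc J c p) (F u w) a b| ≤
      T * (D₁ * (σ + ρ) * g₀ * (‖u‖ * ‖w‖)) := fun u w => by
    have e : inv11 (A.jc J c p) (L u w) a b - inv11 (A.jc J c p) (F u w) a b =
        inv11 (A.jc J c p) (L u w - F u w) a b := by
      simp only [inv11, Matrix.mul_sub, Matrix.sub_mul, Matrix.smul_apply, Matrix.add_apply,
        Matrix.sub_apply, smul_eq_mul]
      ring
    rw [e]
    refine hinv _ _ (by positivity) fun i k => ((hb c p hp σ hσ hσ1 z hz u w i k).2).trans ?_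
    have hsq : σ ^ 2 + ρ ^ 2 ≤ (1 + 2 * R) * (σ + ρ) := by nlinarith
    calc C₁ * (σ ^ 2 + ρ ^ 2) * g₀ * (‖u‖ * ‖w‖) ≤ C₁ * ((1 + 2 * R) * (σ + ρ)) * g₀ * (‖u‖ * ‖w‖) := by
          gcongr
      _ = _ := by simp only [D₁]; ring
  -- the flat part
  have hPc : P c ≤ P₀ := Finset.single_le_sum (f := P) (fun c _ => hP0 c) (Finset.mem_univ c)
  set j := A.jc J c p
  have hpj : pim A c p * J x = j * pim A c p := by
    have h1 : J x * (A.dmat c p * pim A c p) = J x * A.proj x := by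
      have hproj : A.proj x * (A.dmat c p * pim A c p) = A.dmat c p * pim A c p := by
        rw [← Matrix.mul_assoc, A.proj_dmat c hp']
      have hx := A.psi_mem c p hp'
      have key : A.dmat c p * pim A c p * A.proj x = A.proj x := by
        refine Matrix.toLin'.injective (LinearMap.ext fun v => ?_)
        simp only [Matrix.toLin'_apply, ← mulVec_mulVec]
        have ht := A.tan_in_chart (A.proj_tan hx v) c ⟨p, hp', rfl⟩
        rw [A.phi_psi c hp'] at ht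
        conv_lhs => rw [← ht]
        rw [mulVec_mulVec _ (pim A c p) (A.dmat c p), pim_mul_dmat A c hp', one_mulVec, ht]
      have sym1 : (A.proj x)ᵀ = A.proj x := by
        simp only [Atlas.proj, transpose_sum, transpose_smul, transpose_mul, transpose_transpose,
          transpose_nonsing_inv, Matrix.mul_assoc]
      have sym2 : (A.dmat c p * pim A c p)ᵀ = A.dmat c p * pim A c p := by
        simp only [pim, transpose_mul, transpose_transpose, transpose_nonsing_inv, gram_symm,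
          Matrix.mul_assoc]
      have h := congrArg Matrix.transpose key
      rw [transpose_mul, sym1, sym2, hproj] at h
      rw [h]
    rw [hJ.normal x (A.psi_mem c p hp')] at h1
    conv_lhs => rw [← h1, ← Matrix.mul_assoc (J x), hJ.tangent c p hp', Matrix.mul_assoc (A.dmat c p),
      ← Matrix.mul_assoc (pim A c p), pim_mul_dmat A c hp', Matrix.one_mul]
  have hY : ∀ v, ‖yy A c p v‖ ≤ P₀ * ‖v‖ := fun v =>
    ((hP c p hp).2 v).trans (mul_le_mul_of_nonneg_right hPc (norm_nonneg _))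
  have hjY : ∀ v, ‖j *ᵥ yy A c p v‖ ≤ B₀ * P₀ * ‖v‖ := fun v => by
    refine ((hBj c p hp).2 _).trans ?_
    rw [mul_assoc B₀]
    exact mul_le_mul (Finset.single_le_sum (f := Bj) (fun c _ => hBj0 c) (Finset.mem_univ c))
      (hY v) (norm_nonneg _) hB₀
  have hdiff : ∀ v, ‖yy A c p (J z *ᵥ v) - j *ᵥ yy A c p v‖ ≤ P₀ * (N * CJ) * ρ * ‖v‖ := fun v => by
    have e : yy A c p (J z *ᵥ v) - j *ᵥ yy A c p v = pim A c p *ᵥ ((J z - J x) *ᵥ v) := by
      simp only [yy, sub_mulVec, mulVec_sub, mulVec_mulVec, hpj]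
    rw [e]
    refine ((hP c p hp).2 _).trans ?_
    rw [mul_assoc P₀, mul_assoc P₀]
    refine mul_le_mul hPc ?_ (norm_nonneg _) hP₀
    refine (pi_norm_le_iff_of_nonneg (by positivity)).2 fun i => ?_
    rw [Real.norm_eq_abs]
    simp only [mulVec, dotProduct]
    refine (Finset.abs_sum_le_sum_abs _ _).trans ((Finset.sum_le_sum fun k _ => ?_).trans_eq
      (b := ∑ _k : Fin N, CJ * ρ * ‖v‖) ?_)
    · rw [abs_mul, Matrix.sub_apply]
      exact mul_le_mul (hJl z hz x (A.psi_mem c p hp') i k)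
        ((Real.norm_eq_abs _).symm.trans_le (norm_le_pi_norm v k)) (abs_nonneg _) (by positivity)
    · simp; ring
  have hflat : |inv11 j (F u w) a b - inv11 j (F (J z *ᵥ u) (J z *ᵥ w)) a b| ≤
      D₂ * (σ + ρ) * g₀ * (‖u‖ * ‖w‖) := by
    set s := etaF r (z - x) * (gProf d σ (sdist A c p z) * vs A c p) with hs
    set Y := yy A c p u
    set Z := yy A c p w
    set Y' := yy A c p (J z *ᵥ u)
    set Z' := yy A c p (J z *ᵥ w)
    have e : inv11 j (F u w) a b - inv11 j (F (J z *ᵥ u) (J z *ᵥ w)) a b =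
        s * inv11 j (flat (j *ᵥ Y) (j *ᵥ Z) - flat Y' Z') a b := by
      have h1 := congrFun (congrFun (inv11_flat (hJ.sq c p hp') Y Z) a) b
      simp only [F, flat22, inv11, Matrix.mul_smul, Matrix.smul_mul, Matrix.smul_apply,
        Matrix.add_apply, Matrix.sub_apply, smul_eq_mul, Matrix.mul_sub, Matrix.sub_mul] at h1 ⊢
      linear_combination (-s) * h1
    rw [e, abs_mul]
    have hsb : |s| ≤ V₀ * g₀ := by
      by_cases hη : etaF r (z - x) = 0
      · rw [hs, hη, zero_mul, abs_zero]; positivity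
      have hnear : (z - x) ⬝ᵥ (z - x) ≤ 2 * r ^ 2 := by
        by_contra h; exact hη (etaF_zero hG.r_pos (not_le.1 h).le)
      have hlo := (hG.low c p (Metric.closedBall_subset_closedBall (by norm_num) hp) z hz hnear).1
      rw [hs, abs_mul, abs_mul]
      have hg : |gProf d σ (sdist A c p z)| ≤ g₀ := (gProf_bound _ _ _).trans (by
        refine div_le_div_of_nonneg_right (Real.exp_le_exp.2 ?_) (by positivity)
        rw [neg_div, neg_div, neg_le_neg_iff, div_le_div_iff₀ (by positivity) (by positivity)]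
        nlinarith)
      have hvs : |vs A c p| ≤ V₀ := ((hV c p hp).trans (le_abs_self _)).trans
        (Finset.single_le_sum (f := fun c => |V c|) (fun _ _ => abs_nonneg _) (Finset.mem_univ c))
      calc _ ≤ 1 * (g₀ * V₀) := mul_le_mul (abs_etaF_le _ _) (mul_le_mul hg hvs (abs_nonneg _) hg₀)
            (mul_nonneg (abs_nonneg _) (abs_nonneg _)) zero_le_one
        _ = _ := by ring
    have hM : ∀ i k, |(flat (j *ᵥ Y) (j *ᵥ Z) - flat Y' Z') i k| ≤
        24 * (P₀ * (N * CJ)) * (P₀ * J₀ + B₀ * P₀) * ρ * (‖u‖ * ‖w‖) := fun i k => by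
      have e2 : (flat (j *ᵥ Y) (j *ᵥ Z) - flat Y' Z') i k =
          -(flat (Y' - j *ᵥ Y) Z' i k + flat (j *ᵥ Y) (Z' - j *ᵥ Z) i k) := by
        simp only [Matrix.sub_apply, flat, of_apply, det4_expand, Pi.sub_apply]
        ring
      rw [e2, abs_neg]
      refine (abs_add_le _ _).trans ((add_le_add (abs_flat_le _ _ _ _) (abs_flat_le _ _ _ _)).trans ?_)
      have k1 : 24 * ‖Y' - j *ᵥ Y‖ * ‖Z'‖ ≤
          24 * (P₀ * (N * CJ) * ρ * ‖u‖) * (P₀ * (J₀ * ‖w‖)) :=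
        mul_le_mul (mul_le_mul_of_nonneg_left (hdiff u) (by norm_num))
          ((hY _).trans (mul_le_mul_of_nonneg_left (hJn w) hP₀)) (norm_nonneg _) (by positivity)
      have k2 : 24 * ‖j *ᵥ Y‖ * ‖Z' - j *ᵥ Z‖ ≤
          24 * (B₀ * P₀ * ‖u‖) * (P₀ * (N * CJ) * ρ * ‖w‖) :=
        mul_le_mul (mul_le_mul_of_nonneg_left (hjY u) (by norm_num)) (hdiff w) (norm_nonneg _)
          (by positivity)
      exact (add_le_add k1 k2).trans_eq (by ring)
    refine (mul_le_mul hsb (hinv _ _ (by positivity) hM) (abs_nonneg _) (by positivity)).trans ?_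
    calc V₀ * g₀ * (T * (24 * (P₀ * (N * CJ)) * (P₀ * J₀ + B₀ * P₀) * ρ * (‖u‖ * ‖w‖)))
        = D₂ * ρ * g₀ * (‖u‖ * ‖w‖) := by simp only [D₂]; ring
      _ ≤ _ := by gcongr; linarith
  have h1 := herr u w
  have h2 := herr (J z *ᵥ u) (J z *ᵥ w)
  have h3 : ‖J z *ᵥ u‖ * ‖J z *ᵥ w‖ ≤ J₀ ^ 2 * (‖u‖ * ‖w‖) :=
    (mul_le_mul (hJn u) (hJn w) (norm_nonneg _) (by positivity)).trans_eq (by ring)
  have h2' : |inv11 j (L (J z *ᵥ u) (J z *ᵥ w)) a b - inv11 j (F (J z *ᵥ u) (J z *ᵥ w)) a b| ≤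
      T * (D₁ * (σ + ρ) * g₀ * (J₀ ^ 2 * (‖u‖ * ‖w‖))) := h2.trans (by gcongr)
  calc |inv11 j (L u w) a b - inv11 j (L (J z *ᵥ u) (J z *ᵥ w)) a b|
      = |(inv11 j (L u w) a b - inv11 j (F u w) a b) +
          (inv11 j (F u w) a b - inv11 j (F (J z *ᵥ u) (J z *ᵥ w)) a b) -
          (inv11 j (L (J z *ᵥ u) (J z *ᵥ w)) a b - inv11 j (F (J z *ᵥ u) (J z *ᵥ w)) a b)| := by
        congr 1; ring
    _ ≤ T * (D₁ * (σ + ρ) * g₀ * (‖u‖ * ‖w‖)) + D₂ * (σ + ρ) * g₀ * (‖u‖ * ‖w‖) +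
          T * (D₁ * (σ + ρ) * g₀ * (J₀ ^ 2 * (‖u‖ * ‖w‖))) :=
        (abs_sub _ _).trans (add_le_add ((abs_add_le _ _).trans (add_le_add h1 hflat)) h2')
    _ = (T * (1 + J₀ ^ 2) * D₁ + D₂) * ((σ + ρ) * g₀ * (‖u‖ * ‖w‖)) := by ring
    _ ≤ (C₁ + C₁ * (1 + (2 * R) ^ 2) + T * (1 + J₀ ^ 2) * D₁ + D₂) *
          ((σ + ρ) * g₀ * (‖u‖ * ‖w‖)) := by
        refine mul_le_mul_of_nonneg_right ?_ (by positivity)
        have : 0 ≤ C₁ * (1 + (2 * R) ^ 2) := by positivity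
        linarith
    _ = _ := by ring

end Vale.Agent.P204.Kernel
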