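import Mathlib
import Vale.Agent.P204.Kernel.Density.Expand
import Vale.Agent.P204.Kernel.Smooth
import Vale.Agent.P204.General.Assembly.Setup

/-!
# P204: subordinated pairings with a density
-/

open MeasureTheory Matrix Filter Set
open scoped ContDiff Topology

namespace Vale.Agent.P204.Kernel

open Vale.Agent.P204.General Vale.Agent.P204.Torus

variable {N K : ℕ} (A : Atlas N K)

/-- The size is controlled by the entries. -/
theorem exists_sN_le_entries : ∃ C, 0 ≤ C ∧ ∀ x ∈ A.X, ∀ M : MN N,
    A.sN x M ≤ C * ∑ i, ∑ k, |M i k| := by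
  choose B hB0 hB using fun c => exists_norm_mulVec (isCompact_closedBall (0 : Pt) (1 / 2))
    fun i k => ((A.dmat_smooth c i k).continuous).continuousOn
  set B₀ := ∑ c, B c
  have hB₀ : 0 ≤ B₀ := Finset.sum_nonneg fun c _ => hB0 c
  refine ⟨4 * B₀ ^ 2, by positivity, fun x hx M => ?_⟩
  set T := ∑ i, ∑ k, |M i k|
  have hT : 0 ≤ T := Finset.sum_nonneg fun i _ => Finset.sum_nonneg fun k _ => abs_nonneg _
  have hsq : ∀ c, A.chi c x * sq2 (A.pullAt c M (A.phi c x)) ≤
      A.chi c x * (4 * B₀ ^ 2 * T) ^ 2 := fun c => by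
    by_cases h : A.chi c x = 0
    · simp [h]
    obtain ⟨p, hp, rfl⟩ := A.chi_supp c x hx h
    refine mul_le_mul_of_nonneg_left ?_ (A.chi_nonneg _ _)
    rw [A.phi_psi c (closedBall_subset_box hp)]
    have hd : ∀ i k, |A.dmat c p i k| ≤ B₀ := fun i k => ((hB c p hp).1 i k).trans
      (Finset.single_le_sum (f := B) (fun c _ => hB0 c) (Finset.mem_univ c))
    have he : ∀ i k, |A.pullAt c M p i k| ≤ B₀ ^ 2 * T := fun i k => by
      simp only [A.pullAt_apply, Finset.sum_mul]
      refine (Finset.abs_sum_le_sum_abs _ _).trans ((Finset.sum_le_sum fun b _ =>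
        (Finset.abs_sum_le_sum_abs _ _).trans (Finset.sum_le_sum fun a _ => ?_)).trans_eq
        (b := ∑ b, ∑ a, B₀ ^ 2 * |M a b|) ?_)
      · rw [abs_mul, abs_mul]
        calc |A.dmat c p a i| * |M a b| * |A.dmat c p b k| ≤ B₀ * |M a b| * B₀ :=
              mul_le_mul (mul_le_mul_of_nonneg_right (hd a i) (abs_nonneg _)) (hd b k) (abs_nonneg _)
                (by positivity)
          _ = _ := by ring
      · rw [Finset.sum_comm]; simp only [T, Finset.mul_sum]
    refine (Finset.sum_le_sum fun i _ => Finset.sum_le_sum fun k _ =>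
      ((sq_abs _).symm.trans_le (pow_le_pow_left₀ (abs_nonneg _) (he i k) 2))).trans ?_
    simp
    nlinarith [sq_nonneg (B₀ ^ 2 * T)]
  have h : A.sqX x M ≤ (4 * B₀ ^ 2 * T) ^ 2 := by
    refine (Finset.sum_le_sum fun c _ => hsq c).trans_eq ?_
    rw [← Finset.sum_mul, A.chi_sum x hx, one_mul]
  rw [← A.sqrt_sqX, mul_assoc]
  exact (Real.sqrt_le_iff).2 ⟨by positivity, h.trans_eq (by ring)⟩

variable {J : Amb N → MN N} {m : Measure (Amb N × Amb N)} {R : (Amb N → MN N) → ℝ} {C₁ : ℝ}

/-- The anti-invariant part of a test form. -/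
theorem isTestX_anti (hJ : IsACS A J) {a : Amb N → MN N} (ha : IsTestX A a) :
    IsTestX A (fun x => antiX J x (a x)) := by
  refine ⟨fun x => antiX_skew (ha.skew x), fun c i k => ?_⟩
  refine ContDiffOn.congr (f := fun p => antiP (A.jc J c p) (A.pull c a p) i k) ?_ fun p hp => by
    rw [Atlas.pull, pullAt_antiX A hJ c hp]; rfl
  have h1 := hJ.smooth c
  have h2 := ha.smooth c
  simp only [antiP, Matrix.smul_apply, Matrix.sub_apply, Matrix.mul_apply, Matrix.transpose_apply,
    smul_eq_mul]
  exact contDiffOn_const.mul ((h2 i k).sub (ContDiffOn.sum fun b _ =>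
    (ContDiffOn.sum fun a _ => (h1 a i).mul (h2 a b)).mul (h1 b k)))

/-- The extension only sees the anti-invariant part. -/
theorem ext_eq_anti (hJ : IsACS A J) (hR : IsExtX A J m R C₁) {a : Amb N → MN N}
    (ha : IsTestX A a) : R a = R (fun x => antiX J x (a x)) := by
  have h1 := isTestX_anti A hJ ha
  have h2 : IsTestX A (fun x => inv11X J x (a x)) := by
    refine ⟨fun x => inv11X_skew (ha.skew x), fun c i k => ?_⟩
    refine ((ha.smooth c i k).sub (h1.smooth c i k)).congr fun p hp => ?_
    simp only [Atlas.pull, pullAt_inv11X A hJ c hp, pullAt_antiX A hJ c hp, inv11, antiP,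
      Matrix.smul_apply, Matrix.add_apply, Matrix.sub_apply, smul_eq_mul]
    ring
  have h3 : InvX A J (fun x => inv11X J x (a x)) := fun c p hp => by
    simp only [Atlas.pull, pullAt_inv11X A hJ c hp, inv11, Matrix.mul_smul, Matrix.smul_mul,
      Matrix.mul_add, Matrix.add_mul, conj_twice (hJ.sq c p hp)]
    rw [add_comm]
  have e : a = (fun x => inv11X J x (a x)) + fun x => antiX J x (a x) :=
    funext fun x => (inv_add_anti J x (a x)).symm
  conv_lhs => rw [e]
  rw [hR.add _ _ h2 h1, hR.inv _ h2 h3, zero_add]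

/-- The cut-off profile is measurable in both variables. -/
theorem measurable_gProf (d : ℝ) : Measurable (fun q : ℝ × ℝ => gProf d q.1 q.2) := by
  have h1 : Measurable fun q : ℝ × ℝ => cutF d q.2 := by
    have : Continuous (cutF d) := Real.smoothTransition.continuous.comp (by fun_prop)
    exact this.measurable.comp measurable_snd
  have h2 : Measurable fun q : ℝ × ℝ => ((4 * Real.pi * q.1 ^ 2) ^ 2)⁻¹ :=
    ((((measurable_fst.pow_const 2).const_mul (4 * Real.pi))).pow_const 2).inv
  have h3 : Measurable fun q : ℝ × ℝ => Real.exp (-q.2 / (4 * q.1 ^ 2)) :=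
    (measurable_snd.neg.div ((measurable_fst.pow_const 2).const_mul 4)).exp
  exact h1.mul (h2.mul h3)

/-- So is its tail. -/
theorem measurable_hProf (d : ℝ) : Measurable (fun q : ℝ × ℝ => hProf d q.1 q.2) := by
  have hg := (measurable_gProf d).stronglyMeasurable
  have hs : ∀ s : ℝ, StronglyMeasurable fun σ => hProf d σ s := fun s => by
    have h1 : StronglyMeasurable fun σ => ∫ t in Set.Ioc s d, gProf d σ t :=
      StronglyMeasurable.integral_prod_right' (f := fun q : ℝ × ℝ => gProf d q.1 q.2)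
        (ν := volume.restrict (Set.Ioc s d)) hg
    have h2 : StronglyMeasurable fun σ => ∫ t in Set.Ioc d s, gProf d σ t :=
      StronglyMeasurable.integral_prod_right' (f := fun q : ℝ × ℝ => gProf d q.1 q.2)
        (ν := volume.restrict (Set.Ioc d s)) hg
    have e : (fun σ => hProf d σ s) = fun σ =>
        2⁻¹ * ((∫ t in Set.Ioc s d, gProf d σ t) - ∫ t in Set.Ioc d s, gProf d σ t) :=
      funext fun σ => by rw [hProf, intervalIntegral]
    rw [e]
    exact (h1.sub h2).const_mul (2⁻¹ : ℝ)
  have h := (stronglyMeasurable_uncurry_of_continuous_of_stronglyMeasurable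
    (u := fun (s : ℝ) σ => hProf d σ s) (fun σ => (contDiff_hProf d σ).continuous) hs).measurable
  have e : (fun q : ℝ × ℝ => hProf d q.1 q.2) =
      Function.uncurry (fun (s : ℝ) σ => hProf d σ s) ∘ Prod.swap := funext fun q => rfl
  rw [e]
  exact h.comp measurable_swap

theorem measurable_loc22 (c : Fin K) (r d : ℝ) (p : Pt) (u w : Amb N) (a b : Fin 4) :
    Measurable fun q : ℝ × Amb N => loc22 A c r d q.1 p q.2 u w a b := by
  have hsd : Measurable fun q : ℝ × Amb N => (q.1, sdist A c p q.2) := by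
    refine measurable_fst.prodMk ?_
    have : Continuous fun z => sdist A c p z := by
      simp only [sdist, vv, mulVec, dotProduct]
      fun_prop
    exact this.measurable.comp measurable_snd
  have hg : Measurable fun q : ℝ × Amb N => gProf d q.1 (sdist A c p q.2) :=
    Measurable.comp (g := fun q : ℝ × ℝ => gProf d q.1 q.2)
      (f := fun q : ℝ × Amb N => (q.1, sdist A c p q.2)) (measurable_gProf d) hsd
  have hh : Measurable fun q : ℝ × Amb N => hProf d q.1 (sdist A c p q.2) :=
    Measurable.comp (g := fun q : ℝ × ℝ => hProf d q.1 q.2)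
      (f := fun q : ℝ × Amb N => (q.1, sdist A c p q.2)) (measurable_hProf d) hsd
  have h1 : Measurable fun q : ℝ × Amb N =>
      det4 (xx A c a p q.2) (xx A c b p q.2) (yy A c p u) (yy A c p w) := by
    have : Continuous fun z => det4 (xx A c a p z) (xx A c b p z) (yy A c p u) (yy A c p w) := by
      simp only [det4_expand, xx, mulVec, dotProduct, Pi.add_apply]
      fun_prop
    exact this.measurable.comp measurable_snd
  have he : Measurable fun q : ℝ × Amb N => etaF r (q.2 - A.psi c p) := by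
    have : Continuous fun z => etaF r (z - A.psi c p) :=
      (contDiff_etaF r).continuous.comp (continuous_id.sub continuous_const)
    exact this.measurable.comp (f := Prod.snd) measurable_snd
  simp only [loc22, k22, Matrix.of_apply]
  exact he.mul ((hg.mul (h1.const_mul (vs A c p))).add
    (hh.mul_const (vs A c p * curvE (wop A c a p) (wop A c b p) (yy A c p u) (yy A c p w))))

/-- Subordinated pairing of a Gaussian family of forms with a density. -/
theorem exists_sub_bound (hJ : IsACS A J) {a : ℝ} (ha : 0 < a) (k : ℕ) : ∃ C, 0 ≤ C ∧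
    ∀ (R : (Amb N → MN N) → ℝ) (ρ : Amb N → MN N), IsExtX A J m R C₁ → L2X A ρ →
    (∀ a, IsTestX A a → R a = A.wedgeInt ρ a) →
    ∀ ε, 0 < ε → ε ≤ 1 → ∀ x, ∀ B, 0 ≤ B → ∀ F : ℝ → Amb N → MN N,
    (∀ σ, IsTestX A (F σ)) → (∀ u w, Measurable fun q : ℝ × Amb N => F q.1 q.2 u w) →
    (∀ σ, 0 < σ → σ ≤ 1 → ∀ z ∈ A.X,
      A.sN z (antiX J z (F σ z)) ≤ B * (σ ^ k * gauss a σ x z)) →
    Integrable (fun t => omW ε t * R (F (ε * Real.sqrt t))) ∧
      |∫ t, omW ε t * R (F (ε * Real.sqrt t))| ≤
        B * C * ε ^ k * A.conv ε (fun y => A.sN y (ρ y)) x := by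
  obtain ⟨Cw, hCw, hW⟩ := exists_wedgePt_le A hJ
  obtain ⟨Co, hCo, hO⟩ := exists_omW_bound ha k
  refine ⟨Cw * Co, by positivity, fun R ρ hR hρ hρR ε hε hε1 x B hB F hF hFm hFb => ?_⟩
  set σ : ℝ → ℝ := fun t => ε * Real.sqrt t
  have hσm : Measurable σ := (Real.continuous_sqrt.measurable).const_mul ε
  set u : Amb N → ℝ := fun y => A.sN y (ρ y)
  have hu0 : ∀ y, 0 ≤ u y := fun y => A.sN_nonneg _ _
  have hum : AEStronglyMeasurable u A.vol :=
    (aem_sN A aemeasurable_id fun a b => (hρ.1 a b).aemeasurable).aestronglyMeasurable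
  have hu : Integrable u A.vol := ((memLp_two_iff_integrable_sq hum).2
    (hρ.2.congr (Eventually.of_forall fun y => (A.sq_sN _ _).symm))).integrable one_le_two
  -- the dominating function
  set g : ℝ × Amb N → ℝ := fun q => omW ε q.1 * (σ q.1 ^ k * gauss a (σ q.1) x q.2)
  have hg0 : ∀ q, 0 ≤ g q := fun q => mul_nonneg (omW_nonneg _ _)
    (mul_nonneg (pow_nonneg (mul_nonneg hε.le (Real.sqrt_nonneg _)) _) (gauss_nonneg _ _ _ _))
  have hgm : Measurable g := by
    have hσ1 : Measurable fun q : ℝ × Amb N => σ q.1 := hσm.comp measurable_fst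
    have hn : Measurable fun q : ℝ × Amb N => ‖q.2 - x‖ :=
      ((continuous_snd.sub continuous_const).norm).measurable
    exact ((measurable_omW ε).comp measurable_fst).mul ((hσ1.pow_const k).mul
      (((((hn.pow_const 2).const_mul a).neg).div (hσ1.pow_const 2)).exp.div (hσ1.pow_const 4)))
  have hgt : ∀ z, Integrable (fun t => g (t, z)) ∧ ∫ t, g (t, z) ≤ Co * ε ^ k * kern ε ‖x - z‖ := by
    intro z
    have hf : ∀ t, 0 < t → t ≤ 1 / ε → |σ t ^ k * gauss a (σ t) x z| ≤
        1 * ((ε * Real.sqrt t) ^ k / (ε * Real.sqrt t) ^ 4 *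
          Real.exp (-(a * ‖x - z‖ ^ 2) / (ε ^ 2 * t))) := fun t ht _ => by
      have hs : (ε * Real.sqrt t) ^ 2 = ε ^ 2 * t := by rw [mul_pow, Real.sq_sqrt ht.le]
      rw [abs_of_nonneg (mul_nonneg (by positivity) (gauss_nonneg _ _ _ _)), gauss, norm_sub_rev z x,
        one_mul, hs]
      exact le_of_eq (by ring)
    obtain ⟨h1, h2⟩ := hO ε ‖x - z‖ 1 hε (norm_nonneg _) zero_le_one _ hf
    refine ⟨h2 ?_, (le_abs_self _).trans (h1.trans_eq (by ring))⟩
    refine Measurable.aestronglyMeasurable ((hσm.pow_const k).mul ?_)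
    exact ((measurable_const.div (hσm.pow_const 2)).exp).div (hσm.pow_const 4)
  set G : ℝ × Amb N → ℝ := fun q => Cw * B * u q.2 * g q
  have hGm : AEStronglyMeasurable G (volume.prod A.vol) :=
    ((hum.comp_snd).const_mul (Cw * B)).mul hgm.aestronglyMeasurable
  have hG0 : ∀ q, 0 ≤ G q := fun q => mul_nonneg (mul_nonneg (by positivity) (hu0 _)) (hg0 q)
  have hGt : ∀ z, ∫ t, G (t, z) ≤ Cw * B * Co * ε ^ k * (kern ε ‖x - z‖ * u z) := fun z => by
    simp only [G]
    rw [integral_const_mul]
    refine (mul_le_mul_of_nonneg_left (hgt z).2 (mul_nonneg (by positivity) (hu0 z))).trans_eq ?_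
    ring
  have hGz : Integrable (fun z => Cw * B * Co * ε ^ k * (kern ε ‖x - z‖ * u z)) A.vol := by
    refine (hu.bdd_mul (c := 1 / ε ^ 4) ?_ (Eventually.of_forall fun z => ?_)).const_mul _
    · exact (measurable_const.div (((((continuous_const.sub continuous_id).norm).measurable.pow_const
        2).div_const (ε ^ 2)).const_add 1 |>.pow_const 5)).aestronglyMeasurable
    · rw [Real.norm_eq_abs, abs_of_nonneg (kern_nonneg' _ _)]; exact Est.ker_le 5 hε _
  have hGi : Integrable G (volume.prod A.vol) := by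
    refine (integrable_prod_iff' hGm).2 ⟨Eventually.of_forall fun z => (hgt z).1.const_mul (Cw * B * u z), ?_⟩
    refine hGz.mono' ?_ (Eventually.of_forall fun z => ?_)
    · exact hGm.norm.prod_swap.integral_prod_right'
    · rw [Real.norm_eq_abs, abs_of_nonneg (integral_nonneg fun t => norm_nonneg _)]
      refine (le_of_eq (integral_congr_ae (Eventually.of_forall fun t => ?_))).trans (hGt z)
      exact Real.norm_of_nonneg (hG0 _)
  set H : ℝ × Amb N → ℝ := fun q => omW ε q.1 * A.wedgePt q.2 (ρ q.2) (antiX J q.2 (F (σ q.1) q.2))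
  have hHm : AEStronglyMeasurable H (volume.prod A.vol) := by
    refine ((measurable_omW ε).comp measurable_fst).aestronglyMeasurable.mul ?_
    refine (aem_wedgePt A measurable_snd.aemeasurable
      (fun a b => ((hρ.1 a b).comp_snd (μ := (volume : Measure ℝ))).aemeasurable) fun a b => ?_).aestronglyMeasurable
    have hFq : ∀ u w, AEMeasurable (fun q : ℝ × Amb N => F (σ q.1) q.2 u w) (volume.prod A.vol) :=
      fun u w => ((hFm u w).comp ((hσm.comp measurable_fst).prodMk measurable_snd)).aemeasurable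
    have hJq : ∀ u w, AEMeasurable (fun q : ℝ × Amb N => J q.2 u w) (volume.prod A.vol) :=
      fun u w => ((J_aem A hJ u w).aestronglyMeasurable.comp_snd).aemeasurable
    simp only [antiX, Matrix.smul_apply, Matrix.sub_apply, Matrix.mul_apply, Matrix.transpose_apply,
      smul_eq_mul]
    exact ((hFq a b).sub (Finset.aemeasurable_fun_sum _ fun c _ =>
      (Finset.aemeasurable_fun_sum _ fun d _ => (hJq d a).mul (hFq d c)).mul (hJq c b))).const_mul _
  have hHb : ∀ᵐ q ∂(volume : Measure ℝ).prod A.vol, ‖H q‖ ≤ G q := by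
    have h := (Measure.quasiMeasurePreserving_snd (μ := (volume : Measure ℝ)) (ν := A.vol)).ae
      (ae_mem_X A)
    filter_upwards [h] with q hq
    by_cases ht : q.1 ∈ Ioc 0 (1 / ε)
    · have hs : 0 < σ q.1 := mul_pos hε (Real.sqrt_pos.2 ht.1)
      have hs1 : σ q.1 ≤ 1 := by
        have := sigma_sq_le hε ht.1 ht.2
        nlinarith
      rw [Real.norm_eq_abs, abs_mul, abs_of_nonneg (omW_nonneg _ _)]
      have hb := hFb _ hs hs1 _ hq
      have hw := hW q.2 hq (ρ q.2) (antiX J q.2 (F (σ q.1) q.2))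
      rw [A.sqrt_sqX, A.sqrt_sqX] at hw
      calc omW ε q.1 * |A.wedgePt q.2 (ρ q.2) (antiX J q.2 (F (σ q.1) q.2))|
          ≤ omW ε q.1 * (Cw * u q.2 * (B * (σ q.1 ^ k * gauss a (σ q.1) x q.2))) :=
            mul_le_mul_of_nonneg_left (hw.trans (mul_le_mul_of_nonneg_left hb
              (mul_nonneg hCw (hu0 _)))) (omW_nonneg _ _)
        _ = G q := by simp only [G, g]; ring
    · have : omW ε q.1 = 0 := indicator_of_notMem ht _
      simp only [H, this, zero_mul, norm_zero]
      exact hG0 q
  have hHi : Integrable H (volume.prod A.vol) := hGi.mono' hHm hHb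
  have e : (fun t => omW ε t * R (F (ε * Real.sqrt t))) = fun t => ∫ z, H (t, z) ∂A.vol := by
    funext t
    rw [ext_eq_anti A hJ hR (hF _), hρR _ (isTestX_anti A hJ (hF _))]
    simp only [H, Atlas.wedgeInt, integral_const_mul]
    rfl
  rw [e]
  refine ⟨hHi.integral_prod_left, ?_⟩
  rw [integral_integral hHi]
  refine (Real.norm_eq_abs _).symm.trans_le ((norm_integral_le_of_norm_le hGi hHb).trans ?_)
  rw [integral_prod_symm _ hGi]
  refine (integral_mono hGi.integral_prod_right hGz fun z => hGt z).trans_eq ?_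
  simp only [Atlas.conv, integral_const_mul, u]
  ring

end Vale.Agent.P204.Kernel
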