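import Mathlib
import Vale.Agent.P204.Kernel.Density.Subord
import Vale.Agent.P204.Kernel.Parts

/-!
# P204: the pointwise bound of the smoothed functional from a density
-/

open MeasureTheory Matrix Filter Set
open scoped ContDiff Topology

namespace Vale.Agent.P204.Kernel

open Vale.Agent.P204.General Vale.Agent.P204.Torus

variable {N K : ℕ} (A : Atlas N K)

/-- A coefficient of the kernel in a chart, as a form in the second point. -/
noncomputable def zP (r d : ℝ) (c : Fin K) (p : Pt) (a b : Fin 4) (σ : ℝ) (z : Amb N) : MN N :=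
  Matrix.of fun u w => loc22 A c r d σ p z (Pi.single u 1) (Pi.single w 1) a b

/-- The same after taking the invariant part in the first point. -/
noncomputable def zI (J : Amb N → MN N) (r d : ℝ) (c : Fin K) (p : Pt) (a b : Fin 4) (σ : ℝ)
    (z : Amb N) : MN N :=
  Matrix.of fun u w =>
    inv11 (A.jc J c p) (loc22 A c r d σ p z (Pi.single u 1) (Pi.single w 1)) a b

theorem zP_test (r d σ : ℝ) (c : Fin K) {p : Pt} (hp : p ∈ box) (a b : Fin 4) :
    IsTestX A (zP A r d c p a b σ) := by
  refine isTestX_of_smooth A (fun z => ?_) fun u w => ?_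
  · ext u w
    simp only [zP, Matrix.transpose_apply, Matrix.neg_apply, Matrix.of_apply]
    rw [loc22_swap, Matrix.neg_apply]
  · simp only [zP, Matrix.of_apply]
    exact contDiffOn_univ.1 (loc22_smoothOn A c r d σ (baseSmooth_of_mapsTo A c contDiffOn_const
      fun _ _ => hp) contDiffOn_id contDiffOn_const contDiffOn_const a b)

theorem zI_eq (J : Amb N → MN N) (r d σ : ℝ) (c : Fin K) (p : Pt) (a b : Fin 4) (z : Amb N) :
    zI A J r d c p a b σ z = (2 : ℝ)⁻¹ • (zP A r d c p a b σ z +
      ∑ s : Fin 4 × Fin 4, (A.jc J c p s.2 a * A.jc J c p s.1 b) • zP A r d c p s.2 s.1 σ z) := by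
  ext u w
  simp only [zI, zP, inv11, Matrix.of_apply, Matrix.smul_apply, Matrix.add_apply, Matrix.sum_apply,
    Matrix.mul_apply, Matrix.transpose_apply, smul_eq_mul, Fintype.sum_prod_type, Finset.sum_mul]
  congr 2
  exact Finset.sum_congr rfl fun i _ => Finset.sum_congr rfl fun k _ => by ring

theorem isTestX_comb {ι : Type*} (s : Finset ι) (f : ι → ℝ) (g : ι → Amb N → MN N)
    (hg : ∀ i ∈ s, IsTestX A (g i)) : IsTestX A (fun z => ∑ i ∈ s, f i • g i z) := by
  refine ⟨fun z => ?_, fun c i k => ?_⟩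
  · rw [transpose_sum, ← Finset.sum_neg_distrib]
    exact Finset.sum_congr rfl fun j hj => by rw [transpose_smul, (hg j hj).skew, smul_neg]
  · have e : (fun p => A.pull c (fun z => ∑ j ∈ s, f j • g j z) p i k) =
        fun p => ∑ j ∈ s, f j * A.pull c (g j) p i k := by
      funext p
      simp [Atlas.pull, Atlas.pullAt, Matrix.mul_sum, Matrix.sum_mul, Matrix.sum_apply]
    rw [e]
    exact ContDiffOn.sum fun j hj => contDiffOn_const.mul ((hg j hj).smooth c i k)

/-- The extension is linear on finite combinations. -/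
theorem ext_comb {J : Amb N → MN N} {m : Measure (Amb N × Amb N)} {R : (Amb N → MN N) → ℝ}
    {C₁ : ℝ} (hR : IsExtX A J m R C₁) {ι : Type*} (s : Finset ι) (f : ι → ℝ)
    (g : ι → Amb N → MN N) (hg : ∀ i ∈ s, IsTestX A (g i)) :
    R (fun z => ∑ i ∈ s, f i • g i z) = ∑ i ∈ s, f i * R (g i) := by
  classical
  induction s using Finset.induction_on with
  | empty =>
    simp only [Finset.sum_empty]
    have h0 : IsTestX A (0 : Amb N → MN N) :=
      ⟨fun x => by simp, fun c i k => by simp [Atlas.pull_zero, contDiffOn_const]⟩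
    have h := hR.smul 0 0 h0
    rw [zero_smul, zero_mul] at h
    exact h
  | insert j t hj ih =>
    have hgj := hg j (Finset.mem_insert_self j t)
    have hgt : ∀ i ∈ t, IsTestX A (g i) := fun i hi => hg i (Finset.mem_insert_of_mem hi)
    rw [Finset.sum_insert hj, ← ih hgt, ← hR.smul (f j) (g j) hgj]
    have e : (fun z => ∑ i ∈ insert j t, f i • g i z) =
        f j • g j + fun z => ∑ i ∈ t, f i • g i z := by
      funext z; simp [Finset.sum_insert hj]
    rw [e]
    refine hR.add _ _ ?_ (isTestX_comb A t f g hgt)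
    exact ⟨fun x => by simp [hgj.skew x], fun c i k => by
      simpa [Atlas.pull_smul] using (hgj.smooth c i k).const_smul (f j)⟩

theorem norm_single_one (u : Fin N) : ‖(Pi.single u 1 : Amb N)‖ ≤ 1 := by
  refine (pi_norm_le_iff_of_nonneg zero_le_one).2 fun i => ?_
  rw [Pi.single_apply]; split <;> simp

/-- Bilinear expansion of the kernel. -/
theorem loc22_expand (r d σ : ℝ) (c : Fin K) (p : Pt) (z v w : Amb N) :
    loc22 A c r d σ p z v w = ∑ i, ∑ k, (v i * w k) •
      loc22 A c r d σ p z (Pi.single i 1) (Pi.single k 1) := by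
  have h0 : ∀ w, loc22 A c r d σ p z 0 w = 0 := fun w => by
    have h := loc22_linear A c r d σ p z 0 0 w 1
    simpa using h
  have hl : ∀ v w, loc22 A c r d σ p z v w =
      ∑ i, v i • loc22 A c r d σ p z (Pi.single i 1) w := fun v w => by
    have hs : ∀ s : Finset (Fin N), loc22 A c r d σ p z (∑ i ∈ s, v i • Pi.single i 1) w =
        ∑ i ∈ s, v i • loc22 A c r d σ p z (Pi.single i 1) w := fun s => by
      classical
      induction s using Finset.induction_on with
      | empty => simp [h0]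
      | insert j t hj ih =>
        rw [Finset.sum_insert hj, Finset.sum_insert hj, loc22_linear, ih]
    have hv : v = ∑ i, v i • Pi.single (M := fun _ => ℝ) i 1 := by
      funext k; simp [Finset.sum_apply, Pi.single_apply]
    conv_lhs => rw [hv]
    exact hs _
  rw [hl v w]
  refine Finset.sum_congr rfl fun i _ => ?_
  rw [← neg_neg (loc22 A c r d σ p z (Pi.single i 1) w), ← loc22_swap, hl w (Pi.single i 1),
    smul_neg, Finset.smul_sum, ← Finset.sum_neg_distrib]
  refine Finset.sum_congr rfl fun k _ => ?_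
  rw [loc22_swap, smul_neg, smul_neg, neg_neg, smul_smul]

/-- A coordinate form moved to the manifold and split. -/
theorem inv11X_push {J : Amb N → MN N} (hJ : IsACS A J) {c : Fin K} {x : Amb N}
    (hx : x ∈ A.psi c '' box) (P : M4) :
    A.sN x (inv11X J x ((A.L c)ᵀ * P * A.L c)) =
      A.sN x ((A.L c)ᵀ * inv11 (A.jc J c (A.phi c x)) P * A.L c) := by
  obtain ⟨p, hp, rfl⟩ := hx
  refine A.sN_congr fun e he => ?_
  have hxe := A.chi_image (A.psi_mem c p hp) he
  obtain ⟨q, hq, hqe⟩ := hxe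
  rw [← hqe, A.phi_psi e hq]
  have hc : A.psi e q ∈ A.psi c '' box := ⟨p, hp, hqe.symm⟩
  have hLD : ∀ Q : M4, A.pullAt c ((A.L c)ᵀ * Q * A.L c) p = Q := fun Q => by
    have h := A.L_mul_dmat c hp
    calc A.pullAt c ((A.L c)ᵀ * Q * A.L c) p
        = (A.L c * A.dmat c p)ᵀ * Q * (A.L c * A.dmat c p) := by
          simp only [Atlas.pullAt, transpose_mul, Matrix.mul_assoc]
      _ = Q := by rw [h]; simp
  rw [A.pullAt_trans c e hq hc, A.pullAt_trans c e hq hc]
  have ht : A.trans c e q = p := by rw [Atlas.trans, hqe, A.phi_psi c hp]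
  rw [ht, hqe, pullAt_inv11X A hJ c hp, hLD, hLD, A.phi_psi c hp]

/-- Two powers of the distance cost a width. -/
theorem add_gauss_le {a σ : ℝ} (ha : 0 < a) (hσ : 0 < σ) (x z : Amb N) :
    (σ + ‖z - x‖) * gauss a σ x z ≤ (2 + 2 / a) * (σ ^ 1 * gauss (a / 2) σ x z) := by
  set t := ‖z - x‖ / σ
  have ht : 0 ≤ t := by positivity
  have e : ‖z - x‖ = σ * t := by simp only [t]; field_simp
  simp only [gauss, e, pow_one]
  have h1 : (1 + t) * Real.exp (-(a * (σ * t) ^ 2) / σ ^ 2) ≤
      (2 + 2 / a) * Real.exp (-(a / 2 * (σ * t) ^ 2) / σ ^ 2) := by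
    have e1 : -(a * (σ * t) ^ 2) / σ ^ 2 =
        -(a / 2 * (σ * t) ^ 2) / σ ^ 2 + -(a / 2 * t ^ 2) := by field_simp; ring
    rw [e1, Real.exp_add, ← mul_assoc, mul_comm (1 + t), mul_assoc, mul_comm (2 + 2 / a)]
    refine mul_le_mul_of_nonneg_left ?_ (Real.exp_pos _).le
    rw [Real.exp_neg, mul_inv_le_iff₀ (Real.exp_pos _)]
    refine le_trans ?_ (mul_le_mul_of_nonneg_left (Real.add_one_le_exp _) (by positivity))
    have h2a : 2 / a * (a / 2 * t ^ 2) = t ^ 2 := by field_simp
    have : 0 ≤ 2 / a := by positivity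
    have : 0 ≤ a / 2 * t ^ 2 := by positivity
    nlinarith [sq_nonneg (t - 1), sq_nonneg t]
  calc (σ + σ * t) * (Real.exp (-(a * (σ * t) ^ 2) / σ ^ 2) / σ ^ 4)
      = σ / σ ^ 4 * ((1 + t) * Real.exp (-(a * (σ * t) ^ 2) / σ ^ 2)) := by ring
    _ ≤ σ / σ ^ 4 * ((2 + 2 / a) * Real.exp (-(a / 2 * (σ * t) ^ 2) / σ ^ 2)) :=
        mul_le_mul_of_nonneg_left h1 (by positivity)
    _ = _ := by ring

/-- The invariant part is linear. -/
theorem inv11_sum2 (j : M4) (f : Fin N → Fin N → ℝ) (L : Fin N → Fin N → M4) (a b : Fin 4) :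
    inv11 j (∑ i, ∑ k, f i k • L i k) a b = ∑ i, ∑ k, f i k * inv11 j (L i k) a b := by
  have e : inv11 j (∑ i, ∑ k, f i k • L i k) = ∑ i, ∑ k, f i k • inv11 j (L i k) := by
    simp only [inv11, Matrix.mul_sum, Matrix.sum_mul, Matrix.mul_smul, Matrix.smul_mul,
      ← Finset.sum_add_distrib, Finset.smul_sum, smul_add, smul_comm ((2 : ℝ)⁻¹)]
  rw [e]
  simp only [Matrix.sum_apply, Matrix.smul_apply, smul_eq_mul]

/-- The pointwise bounds of the coefficients. -/
theorem exists_coef_bounds {J : Amb N → MN N} (hJ : IsACS A J) {r d c₀ C₀ : ℝ}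
    (hG : GoodR A r d c₀ C₀) :
    ∃ B, 0 ≤ B ∧ ∀ c, ∀ p ∈ Metric.closedBall (0 : Pt) (1 / 2), ∀ σ, 0 < σ → σ ≤ 1 →
      ∀ z ∈ A.X, ∀ a b,
      A.sN z (antiX J z (zP A r d c p a b σ z)) ≤
        B * (σ ^ 0 * gauss (c₀ / 4) σ (A.psi c p) z) ∧
      A.sN z (antiX J z (zI A J r d c p a b σ z)) ≤
        B * (σ ^ 1 * gauss (c₀ / 8) σ (A.psi c p) z) := by
  obtain ⟨C₂, hC₂, hb⟩ := exists_loc22_bounds A hJ hG
  obtain ⟨Cs, hCs, hs⟩ := exists_sN_le_entries A
  obtain ⟨Ca, hCa, ha⟩ := Atlas.exists_anti_bound (A := A) hJ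
  have hc4 : 0 < c₀ / 4 := by have := hG.c_pos; positivity
  set n := (N : ℝ) * N
  set Q := 2 + 2 / (c₀ / 4)
  have hQ : 0 ≤ Q := by positivity
  refine ⟨(Ca + Q) * (Cs * (n * C₂)), by positivity, fun c p hp σ hσ hσ1 z hz a b => ?_⟩
  have h1 := gauss_nonneg (c₀ / 4) σ (A.psi c p) z
  have hcnt : ∀ (M : MN N) (t : ℝ), (∀ u w, |M u w| ≤ t) → A.sN z M ≤ Cs * (n * t) := fun M t ht =>
    (hs z hz M).trans (mul_le_mul_of_nonneg_left
      ((Finset.sum_le_sum fun u _ => Finset.sum_le_sum fun w _ => ht u w).trans_eq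
        (by simp [n]; ring)) hCs)
  have huw : ∀ u w : Fin N, ‖(Pi.single u 1 : Amb N)‖ * ‖(Pi.single w 1 : Amb N)‖ ≤ 1 := fun u w =>
    mul_le_one₀ (norm_single_one u) (norm_nonneg _) (norm_single_one w)
  refine ⟨?_, ?_⟩
  · refine (ha z hz _).1.trans ((mul_le_mul_of_nonneg_left
      (hcnt _ (C₂ * gauss (c₀ / 4) σ (A.psi c p) z) fun u w => ?_) (zero_le_one.trans hCa)).trans ?_)
    · refine ((hb c p hp σ hσ hσ1 z hz _ _ a b).1).trans ?_
      exact mul_le_of_le_one_right (by positivity) (huw u w)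
    · rw [pow_zero, one_mul]
      calc Ca * (Cs * (n * (C₂ * gauss (c₀ / 4) σ (A.psi c p) z)))
          = Ca * (Cs * (n * C₂)) * gauss (c₀ / 4) σ (A.psi c p) z := by ring
        _ ≤ _ := by gcongr; linarith
  · have hent : ∀ u w, |antiX J z (zI A J r d c p a b σ z) u w| ≤
        C₂ * (σ + ‖z - A.psi c p‖) * gauss (c₀ / 4) σ (A.psi c p) z := fun u w => by
      have e : ((J z)ᵀ * zI A J r d c p a b σ z * J z) u w =
          inv11 (A.jc J c p) (loc22 A c r d σ p z (J z *ᵥ Pi.single u 1)
            (J z *ᵥ Pi.single w 1)) a b := by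
        rw [loc22_expand A r d σ c p z (J z *ᵥ Pi.single u 1), inv11_sum2]
        simp only [zI, Matrix.mul_apply, Matrix.transpose_apply, Matrix.of_apply,
          mulVec_single_one, Matrix.col_apply, Finset.sum_mul]
        rw [Finset.sum_comm]
        exact Finset.sum_congr rfl fun i _ => Finset.sum_congr rfl fun k _ => by ring
      have h2 := (hb c p hp σ hσ hσ1 z hz (Pi.single u 1) (Pi.single w 1) a b).2
      simp only [antiX, Matrix.smul_apply, Matrix.sub_apply, smul_eq_mul, e, abs_mul]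
      rw [abs_of_nonneg (by norm_num : (0 : ℝ) ≤ 2⁻¹)]
      refine (mul_le_of_le_one_left (abs_nonneg _) (by norm_num)).trans (h2.trans ?_)
      exact mul_le_of_le_one_right (by positivity) (huw u w)
    refine (hcnt _ _ hent).trans ?_
    have e8 : c₀ / 4 / 2 = c₀ / 8 := by ring
    have hg := add_gauss_le hc4 hσ (A.psi c p) z
    rw [e8] at hg
    have h2 := gauss_nonneg (c₀ / 8) σ (A.psi c p) z
    calc Cs * (n * (C₂ * (σ + ‖z - A.psi c p‖) * gauss (c₀ / 4) σ (A.psi c p) z))
        = Cs * (n * C₂) * ((σ + ‖z - A.psi c p‖) * gauss (c₀ / 4) σ (A.psi c p) z) := by ring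
      _ ≤ Cs * (n * C₂) * (Q * (σ ^ 1 * gauss (c₀ / 8) σ (A.psi c p) z)) :=
          mul_le_mul_of_nonneg_left hg (by positivity)
      _ = Q * (Cs * (n * C₂)) * (σ ^ 1 * gauss (c₀ / 8) σ (A.psi c p) z) := by ring
      _ ≤ _ := by gcongr; linarith

/-- The pointwise bound of the smoothed functional from a density. -/
theorem densityStmt : DensityStmt := by
  intro N K A J r d c₀ C₀ m R C₁ hJ hG hR
  have hc0 := hG.c_pos
  obtain ⟨B, hB, hbd⟩ := exists_coef_bounds A hJ hG
  obtain ⟨S₀, hS₀, hs0⟩ := exists_sub_bound (m := m) (C₁ := C₁) A hJ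
    (show 0 < c₀ / 4 by positivity) 0
  obtain ⟨S₁, hS₁, hs1⟩ := exists_sub_bound (m := m) (C₁ := C₁) A hJ
    (show 0 < c₀ / 8 by positivity) 1
  obtain ⟨Cs, hCs, hs⟩ := exists_sN_le_entries A
  set Lm := ∑ c, ∑ i, ∑ j, |A.L c i j|
  have hLm : 0 ≤ Lm := Finset.sum_nonneg fun c _ => Finset.sum_nonneg fun i _ =>
    Finset.sum_nonneg fun j _ => abs_nonneg _
  set T := Cs * ((N : ℝ) * N * 16 * Lm ^ 2)
  refine ⟨T * (B * (S₀ + S₁)), 1, one_pos, fun ε hε hε1 ρ hρ hρR => (ae_mem_X A).mono fun x hx => ?_⟩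
  set W := A.conv ε (fun y => Real.sqrt (A.sqX y (ρ y))) x with hW
  have hW0 : 0 ≤ W := integral_nonneg fun y => mul_nonneg (kern_nonneg' _ _) (Real.sqrt_nonneg _)
  have hu : (fun y => A.sN y (ρ y)) = fun y => Real.sqrt (A.sqX y (ρ y)) :=
    funext fun y => (A.sqrt_sqX _ _).symm
  set P : Fin K → M4 := fun c => Matrix.of fun a b =>
    ∫ t, omW ε t * R (zP A r d c (A.phi c x) a b (ε * Real.sqrt t))
  have hch : ∀ c, A.chi c x ≠ 0 → A.phi c x ∈ Metric.closedBall (0 : Pt) (1 / 2) ∧
      A.psi c (A.phi c x) = x := fun c hc => by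
    obtain ⟨p, hp, he⟩ := A.chi_supp c x hx hc
    rw [← he, A.phi_psi c (closedBall_subset_box hp)]
    exact ⟨hp, rfl⟩
  have hP0 : ∀ c, A.chi c x ≠ 0 → ∀ a b,
      Integrable (fun t => omW ε t * R (zP A r d c (A.phi c x) a b (ε * Real.sqrt t))) ∧
        |P c a b| ≤ B * S₀ * W := fun c hc a b => by
    obtain ⟨hp, hpx⟩ := hch c hc
    have h := hs0 R ρ hR hρ hρR ε hε hε1 x B hB (zP A r d c (A.phi c x) a b)
      (fun σ => zP_test A r d σ c (closedBall_subset_box hp) a b)
      (fun u w => measurable_loc22 A c r d _ _ _ a b) fun σ h1 h2 z hz => by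
        have := (hbd c _ hp σ h1 h2 z hz a b).1
        rwa [hpx] at this
    rw [pow_zero, mul_one, hu] at h
    exact h
  have hI : ∀ c, A.chi c x ≠ 0 → ∀ a b,
      |inv11 (A.jc J c (A.phi c x)) (P c) a b| ≤ B * S₁ * ε * W := fun c hc a b => by
    obtain ⟨hp, hpx⟩ := hch c hc
    set p := A.phi c x
    have hp' := closedBall_subset_box hp
    have htest : ∀ σ, IsTestX A (zI A J r d c p a b σ) := fun σ => by
      refine isTestX_of_smooth A (fun z => ?_) fun u w => ?_
      · rw [zI_eq, transpose_smul, transpose_add, (zP_test A r d σ c hp' a b).skew, transpose_sum,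
          ← smul_neg, neg_add, ← Finset.sum_neg_distrib]
        congr 2
        exact Finset.sum_congr rfl fun s _ => by
          rw [transpose_smul, (zP_test A r d σ c hp' s.2 s.1).skew, smul_neg]
      · have h : ∀ a b, ContDiff ℝ ∞ fun z => loc22 A c r d σ p z (Pi.single u 1) (Pi.single w 1) a b :=
          fun a b => contDiffOn_univ.1 (loc22_smoothOn A c r d σ
            (baseSmooth_of_mapsTo A c contDiffOn_const fun _ _ => hp') contDiffOn_id contDiffOn_const
            contDiffOn_const a b)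
        simp only [zI, inv11, Matrix.of_apply, Matrix.smul_apply, Matrix.add_apply, Matrix.mul_apply,
          Matrix.transpose_apply, smul_eq_mul]
        fun_prop
    have hmeas : ∀ u w, Measurable fun q : ℝ × Amb N => zI A J r d c p a b q.1 q.2 u w := fun u w => by
      have h := fun a b => measurable_loc22 A c r d p (Pi.single u 1) (Pi.single w 1) a b
      simp only [zI, inv11, Matrix.of_apply, Matrix.smul_apply, Matrix.add_apply, Matrix.mul_apply,
        Matrix.transpose_apply, smul_eq_mul]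
      exact ((h a b).add (Finset.measurable_fun_sum _ fun i _ =>
        (Finset.measurable_fun_sum _ fun k _ => (h k i).const_mul _).mul_const _)).const_mul _
    have h := (hs1 R ρ hR hρ hρR ε hε hε1 x B hB (zI A J r d c p a b) htest hmeas
      fun σ h1 h2 z hz => by
        have := (hbd c _ hp σ h1 h2 z hz a b).2
        rwa [hpx] at this).2
    rw [pow_one, hu] at h
    refine le_of_eq_of_le (congrArg _ ?_) h
    -- linearity
    have hlin : ∀ σ, R (zI A J r d c p a b σ) = (2 : ℝ)⁻¹ * (R (zP A r d c p a b σ) +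
        ∑ s : Fin 4 × Fin 4, (A.jc J c p s.2 a * A.jc J c p s.1 b) * R (zP A r d c p s.2 s.1 σ)) := by
      intro σ
      set f : Option (Fin 4 × Fin 4) → ℝ := fun o => o.elim (2 : ℝ)⁻¹
        fun s => (2 : ℝ)⁻¹ * (A.jc J c p s.2 a * A.jc J c p s.1 b)
      set g : Option (Fin 4 × Fin 4) → Amb N → MN N := fun o => o.elim (zP A r d c p a b σ)
        fun s => zP A r d c p s.2 s.1 σ
      have e : zI A J r d c p a b σ = fun z => ∑ o, f o • g o z := funext fun z => by
        rw [zI_eq, Fintype.sum_option, smul_add, Finset.smul_sum]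
        simp only [f, g, Option.elim, smul_smul]
      rw [e, ext_comb A hR _ f g fun o _ => by
        cases o with
        | none => exact zP_test A r d σ c hp' a b
        | some s => exact zP_test A r d σ c hp' s.2 s.1]
      rw [Fintype.sum_option, mul_add, Finset.mul_sum]
      simp only [f, g, Option.elim, mul_assoc]
    simp only [hlin, P, inv11, Matrix.smul_apply, Matrix.add_apply, Matrix.of_apply, smul_eq_mul,
      Matrix.mul_apply, Matrix.transpose_apply, Finset.sum_mul, Fintype.sum_prod_type]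
    have e : ∀ t, omW ε t * (2⁻¹ * (R (zP A r d c p a b (ε * Real.sqrt t)) + ∑ i, ∑ k,
        A.jc J c p k a * A.jc J c p i b * R (zP A r d c p k i (ε * Real.sqrt t)))) =
        2⁻¹ * (omW ε t * R (zP A r d c p a b (ε * Real.sqrt t)) + ∑ i, ∑ k,
          A.jc J c p k a * A.jc J c p i b * (omW ε t * R (zP A r d c p k i (ε * Real.sqrt t)))) := by
      intro t
      simp only [mul_add, Finset.mul_sum]
      congr 1
      · ring
      · exact Finset.sum_congr rfl fun i _ => Finset.sum_congr rfl fun k _ => by ring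
    simp only [e]
    rw [integral_const_mul, integral_add (hP0 c hc a b).1
      (integrable_finsetSum _ fun i _ => integrable_finsetSum _ fun k _ =>
        ((hP0 c hc k i).1).const_mul _),
      integral_finsetSum _ fun i _ => integrable_finsetSum _ fun k _ => ((hP0 c hc k i).1).const_mul _]
    congr 2
    refine Finset.sum_congr rfl fun i _ => ?_
    rw [integral_finsetSum _ fun k _ => ((hP0 c hc k i).1).const_mul _]
    exact Finset.sum_congr rfl fun k _ => by rw [integral_const_mul]; ring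
  have hVE : VE A r d ε R x = ∑ c, A.chi c x • ((A.L c)ᵀ * P c * A.L c) := by
    ext i k
    simp only [VE, P, Matrix.sum_apply, Matrix.smul_apply, Matrix.mul_apply, Matrix.transpose_apply,
      Matrix.of_apply, smul_eq_mul]
    have hz : ∀ σ, R (zForm A r d σ x i k) = ∑ s : Fin K × Fin 4 × Fin 4,
        A.chi s.1 x * A.L s.1 s.2.1 i * A.L s.1 s.2.2 k *
          R (zP A r d s.1 (A.phi s.1 x) s.2.1 s.2.2 σ) := fun σ => by
      classical
      set f : Fin K × Fin 4 × Fin 4 → ℝ :=
        fun s => A.chi s.1 x * A.L s.1 s.2.1 i * A.L s.1 s.2.2 k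
      set g : Fin K × Fin 4 × Fin 4 → Amb N → MN N := fun s =>
        if A.chi s.1 x = 0 then 0 else zP A r d s.1 (A.phi s.1 x) s.2.1 s.2.2 σ
      have e : zForm A r d σ x i k = fun z => ∑ s, f s • g s z := funext fun z => by
        ext u w
        simp only [zForm, kk, Atlas.push, f, g, zP, Matrix.of_apply, Matrix.sum_apply,
          Matrix.smul_apply, Matrix.mul_apply, Matrix.transpose_apply, smul_eq_mul,
          Fintype.sum_prod_type, Finset.sum_mul, Finset.mul_sum]
        refine Finset.sum_congr rfl fun c _ => ?_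
        rw [Finset.sum_comm]
        refine Finset.sum_congr rfl fun a' _ => Finset.sum_congr rfl fun b' _ => ?_
        by_cases hc : A.chi c x = 0
        · simp [hc]
        · simp only [if_neg hc, zP, Matrix.of_apply]; ring
      rw [e, ext_comb A hR _ f g fun s _ => ?_]
      · refine Finset.sum_congr rfl fun s _ => ?_
        by_cases hc : A.chi s.1 x = 0
        · simp [f, hc]
        · simp only [f, g, if_neg hc]
      · by_cases hc : A.chi s.1 x = 0
        · simp only [g, if_pos hc]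
          exact ⟨fun z => by simp, fun c i k => by simp [Atlas.pull_zero, contDiffOn_const]⟩
        · simp only [g, if_neg hc]
          exact zP_test A r d σ _ (closedBall_subset_box (hch _ hc).1) _ _
    simp only [hz, Finset.mul_sum]
    have hint : ∀ s : Fin K × Fin 4 × Fin 4, Integrable fun t => omW ε t *
        (A.chi s.1 x * A.L s.1 s.2.1 i * A.L s.1 s.2.2 k *
          R (zP A r d s.1 (A.phi s.1 x) s.2.1 s.2.2 (ε * Real.sqrt t))) := fun s => by
      by_cases hc : A.chi s.1 x = 0
      · simp [hc]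
      · refine (((hP0 _ hc s.2.1 s.2.2).1).const_mul
          (A.chi s.1 x * A.L s.1 s.2.1 i * A.L s.1 s.2.2 k)).congr (Eventually.of_forall fun t => ?_)
        show _ = _
        ring
    rw [integral_finsetSum _ fun s _ => hint s, Fintype.sum_prod_type]
    refine Finset.sum_congr rfl fun c _ => ?_
    simp only [Finset.sum_mul, Finset.mul_sum, Fintype.sum_prod_type]
    rw [Finset.sum_comm]
    refine Finset.sum_congr rfl fun a' _ => Finset.sum_congr rfl fun b' _ => ?_
    simp only [← integral_const_mul, ← integral_mul_const]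
    exact integral_congr_ae (Eventually.of_forall fun t => by show _ = _; ring)
  have hpush : ∀ c (Q : M4) (q : ℝ), 0 ≤ q → (∀ a b, |Q a b| ≤ q) →
      A.sN x ((A.L c)ᵀ * Q * A.L c) ≤ T * q := fun c Q q hq hQ => by
    have hL : ∀ a j, |A.L c a j| ≤ Lm := fun a j =>
      (Finset.single_le_sum (f := fun j => |A.L c a j|) (fun _ _ => abs_nonneg _)
        (Finset.mem_univ j)).trans ((Finset.single_le_sum (f := fun a => ∑ j, |A.L c a j|)
        (fun _ _ => Finset.sum_nonneg fun _ _ => abs_nonneg _) (Finset.mem_univ a)).trans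
        (Finset.single_le_sum (f := fun c => ∑ a, ∑ j, |A.L c a j|) (fun _ _ =>
          Finset.sum_nonneg fun _ _ => Finset.sum_nonneg fun _ _ => abs_nonneg _)
          (Finset.mem_univ c)))
    have hent : ∀ i k, |((A.L c)ᵀ * Q * A.L c) i k| ≤ 16 * Lm ^ 2 * q := fun i k => by
      simp only [Matrix.mul_apply, Matrix.transpose_apply, Finset.sum_mul]
      calc |∑ b : Fin 4, ∑ a : Fin 4, A.L c a i * Q a b * A.L c b k|
          ≤ ∑ b : Fin 4, ∑ a : Fin 4, |A.L c a i * Q a b * A.L c b k| :=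
            (Finset.abs_sum_le_sum_abs _ _).trans
              (Finset.sum_le_sum fun b _ => Finset.abs_sum_le_sum_abs _ _)
        _ ≤ ∑ _b : Fin 4, ∑ _a : Fin 4, Lm * q * Lm := by
            refine Finset.sum_le_sum fun b _ => Finset.sum_le_sum fun a _ => ?_
            rw [abs_mul, abs_mul]
            exact mul_le_mul (mul_le_mul (hL _ _) (hQ a b) (abs_nonneg _) hLm) (hL _ _)
              (abs_nonneg _) (by positivity)
        _ = 16 * Lm ^ 2 * q := by simp; ring
    calc A.sN x ((A.L c)ᵀ * Q * A.L c)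
        ≤ Cs * ∑ i, ∑ k, |((A.L c)ᵀ * Q * A.L c) i k| := hs x hx _
      _ ≤ Cs * ∑ _i : Fin N, ∑ _k : Fin N, 16 * Lm ^ 2 * q :=
          mul_le_mul_of_nonneg_left
            (Finset.sum_le_sum fun i _ => Finset.sum_le_sum fun k _ => hent i k) hCs
      _ = T * q := by simp [T]; ring
  have hsum : ∀ (f : Fin K → MN N) (q : ℝ),
      (∀ c, A.chi c x ≠ 0 → A.sN x (f c) ≤ q) → A.sN x (∑ c, A.chi c x • f c) ≤ q := fun f q hf => by
    have h : ∀ s : Finset (Fin K),
        A.sN x (∑ c ∈ s, A.chi c x • f c) ≤ ∑ c ∈ s, A.chi c x * q := fun s => by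
      classical
      induction s using Finset.induction_on with
      | empty => simpa using (A.sN_smul x 0 0).le
      | insert j t hj ih =>
        rw [Finset.sum_insert hj, Finset.sum_insert hj]
        refine (A.sN_add_le x _ _).trans (add_le_add ?_ ih)
        rw [A.sN_smul, abs_of_nonneg (A.chi_nonneg j x)]
        by_cases hc : A.chi j x = 0
        · simp [hc]
        · exact mul_le_mul_of_nonneg_left (hf j hc) (A.chi_nonneg j x)
    refine (h _).trans_eq ?_
    rw [← Finset.sum_mul, A.chi_sum x hx, one_mul]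
  rw [A.sqrt_sqX, A.sqrt_sqX, hVE]
  have hTB : 0 ≤ T * B * W := by positivity
  refine ⟨(hsum (fun c => (A.L c)ᵀ * P c * A.L c) (T * (B * S₀ * W)) fun c hc =>
    hpush c _ _ (by positivity) fun a b => (hP0 c hc a b).2).trans ?_, ?_⟩
  · nlinarith [mul_nonneg hTB hS₁]
  · have e : inv11X J x (∑ c, A.chi c x • ((A.L c)ᵀ * P c * A.L c)) =
        ∑ c, A.chi c x • inv11X J x ((A.L c)ᵀ * P c * A.L c) := by
      simp only [inv11X, Matrix.mul_sum, Matrix.sum_mul, Matrix.mul_smul, Matrix.smul_mul,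
        ← Finset.sum_add_distrib, Finset.smul_sum, smul_add, smul_comm (A.chi _ x)]
    rw [e]
    refine (hsum (fun c => inv11X J x ((A.L c)ᵀ * P c * A.L c)) (T * (B * S₁ * ε * W))
      fun c hc => ?_).trans ?_
    · rw [inv11X_push A hJ (A.chi_image hx hc)]
      exact hpush c _ _ (by positivity) fun a b => hI c hc a b
    · nlinarith [mul_nonneg (mul_nonneg hTB hS₀) hε.le]

end Vale.Agent.P204.Kernel
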